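import Vale.Agent.Lib.P070.AlgG

/-!
# P070: the algebras `Alg b u S`
-/

open Filter Topology

namespace P070

section A

variable {H : Type} [NormedAddCommGroup H] [InnerProductSpace ℂ H] [CompleteSpace H]
  (b : Base H) {I : Type} (u : I → H →L[ℂ] H)

theorem isClosed_Alg (S : Set I) : IsClosed (Alg b u S : Set (H →L[ℂ] H)) :=
  StarSubalgebra.isClosed_topologicalClosure _

private theorem AlgA_gen_sub (S : Set I) :
    ((b.B0 : Set (H →L[ℂ] H)) ∪ u '' S) ⊆ (Alg b u S : Set (H →L[ℂ] H)) :=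
  (StarAlgebra.subset_adjoin ℂ _).trans (StarSubalgebra.le_topologicalClosure _)

private theorem AlgA_le {S : Set I} {C : StarSubalgebra ℂ (H →L[ℂ] H)} (hC : IsClosed (C : Set (H →L[ℂ] H)))
    (h0 : b.B0 ≤ C) (hu : ∀ i ∈ S, u i ∈ C) : Alg b u S ≤ C := by
  refine StarSubalgebra.topologicalClosure_minimal (StarAlgebra.adjoin_le ?_) hC
  rintro x (hx | ⟨i, hi, rfl⟩)
  · exact h0 hx
  · exact hu i hi

theorem B0_le_Alg (S : Set I) : b.B0 ≤ Alg b u S := fun _ hx =>
  AlgA_gen_sub b u S (Or.inl hx)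

theorem u_mem_Alg {S : Set I} {i : I} (hi : i ∈ S) : u i ∈ Alg b u S :=
  AlgA_gen_sub b u S (Or.inr ⟨i, hi, rfl⟩)

theorem Alg_mono {S S' : Set I} (h : S ⊆ S') : Alg b u S ≤ Alg b u S' :=
  AlgA_le b u (isClosed_Alg b u S') (B0_le_Alg b u S') fun _ hi => u_mem_Alg b u (h hi)

theorem Alg_empty : Alg b u (∅ : Set I) = b.B0 :=
  le_antisymm (AlgA_le b u b.closed le_rfl fun _ hi => absurd hi (Set.notMem_empty _))
    (B0_le_Alg b u ∅)

theorem gen_Alg (S : Set I) (i : I) : gen (Alg b u S) (u i) = Alg b u (insert i S) := by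
  have hsub : ((Alg b u S : Set (H →L[ℂ] H)) ∪ {u i}) ⊆
      (gen (Alg b u S) (u i) : Set (H →L[ℂ] H)) :=
    (StarAlgebra.subset_adjoin ℂ _).trans (StarSubalgebra.le_topologicalClosure _)
  refine le_antisymm ?_ ?_
  · refine StarSubalgebra.topologicalClosure_minimal (StarAlgebra.adjoin_le ?_)
      (isClosed_Alg b u _)
    rintro x (hx | hx)
    · exact Alg_mono b u (Set.subset_insert i S) hx
    · rw [Set.mem_singleton_iff.1 hx]
      exact u_mem_Alg b u (Set.mem_insert i S)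
  · refine AlgA_le b u (StarSubalgebra.isClosed_topologicalClosure _) ?_ ?_
    · intro x hx
      exact hsub (Or.inl (B0_le_Alg b u S hx))
    · rintro j (rfl | hj)
      · exact hsub (Or.inr rfl)
      · exact hsub (Or.inl (u_mem_Alg b u hj))

/-- elements are approximated with finitely many indices -/
theorem Alg_approx {S : Set I} {x : H →L[ℂ] H} (hx : x ∈ Alg b u S) {ε : ℝ} (hε : 0 < ε) :
    ∃ F : Finset I, (F : Set I) ⊆ S ∧ ∃ x' ∈ Alg b u (F : Set I), ‖x - x'‖ < ε := by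
  classical
  obtain ⟨y, hy, hxy⟩ := Metric.mem_closure_iff.1 hx ε hε
  have key : ∃ F : Finset I, (F : Set I) ⊆ S ∧ y ∈ Alg b u (F : Set I) := by
    refine StarAlgebra.adjoin_induction (R := ℂ) (s := (b.B0 : Set (H →L[ℂ] H)) ∪ u '' S)
      (p := fun y _ => ∃ F : Finset I, (F : Set I) ⊆ S ∧ y ∈ Alg b u (F : Set I))
      ?_ ?_ ?_ ?_ ?_ hy
    · rintro z (hz | ⟨i, hi, rfl⟩)
      · exact ⟨∅, by simp, B0_le_Alg b u _ hz⟩
      · refine ⟨{i}, by simpa using hi, u_mem_Alg b u (by simp)⟩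
    · intro r
      exact ⟨∅, by simp, algebraMap_mem _ r⟩
    · rintro z w _ _ ⟨F, hF, hzF⟩ ⟨G, hG, hwG⟩
      refine ⟨F ∪ G, by simpa using ⟨hF, hG⟩, add_mem ?_ ?_⟩
      · exact Alg_mono b u (by simp) hzF
      · exact Alg_mono b u (by simp) hwG
    · rintro z w _ _ ⟨F, hF, hzF⟩ ⟨G, hG, hwG⟩
      refine ⟨F ∪ G, by simpa using ⟨hF, hG⟩, mul_mem ?_ ?_⟩
      · exact Alg_mono b u (by simp) hzF
      · exact Alg_mono b u (by simp) hwG
    · rintro z _ ⟨F, hF, hzF⟩
      exact ⟨F, hF, star_mem hzF⟩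
  obtain ⟨F, hF, hyF⟩ := key
  refine ⟨F, hF, y, hyF, ?_⟩
  rwa [dist_eq_norm] at hxy

/-- elements need only countably many indices -/
theorem Alg_countable {S : Set I} {x : H →L[ℂ] H} (hx : x ∈ Alg b u S) :
    ∃ S' ⊆ S, S'.Countable ∧ x ∈ Alg b u S' := by
  have h : ∀ n : ℕ, ∃ F : Finset I, (F : Set I) ⊆ S ∧ ∃ x' ∈ Alg b u (F : Set I),
      ‖x - x'‖ < 1 / ((n : ℝ) + 1) := fun n => Alg_approx b u hx Nat.one_div_pos_of_nat
  choose F hF x' hx' hd using h
  refine ⟨⋃ n, (F n : Set I), Set.iUnion_subset hF,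
    Set.countable_iUnion fun n => (F n).countable_toSet, ?_⟩
  have hcl := isClosed_Alg b u (⋃ n, (F n : Set I))
  have hmem : x ∈ closure (Alg b u (⋃ n, (F n : Set I)) : Set (H →L[ℂ] H)) := by
    refine Metric.mem_closure_iff.2 fun ε hε => ?_
    obtain ⟨n, hn⟩ := exists_nat_one_div_lt hε
    refine ⟨x' n, Alg_mono b u (Set.subset_iUnion (fun n => (F n : Set I)) n) (hx' n), ?_⟩
    rw [dist_eq_norm]
    exact (hd n).trans hn
  rwa [hcl.closure_eq] at hmem

/-- separability -/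
theorem Alg_separable {S : Set I} (hS : S.Countable) :
    ∃ e : ℕ → (H →L[ℂ] H), (∀ n, e n ∈ Alg b u S) ∧
      ∀ x ∈ Alg b u S, ∀ ε : ℝ, 0 < ε → ∃ n, ‖x - e n‖ < ε := by
  obtain ⟨D, hD, hDB, hBD⟩ := b.sep
  have hs : (D ∪ u '' S).Countable := hD.union (hS.image u)
  have hstar : (star (D ∪ u '' S) : Set (H →L[ℂ] H)).Countable := by
    have h1 : (star (D ∪ u '' S) : Set (H →L[ℂ] H)) = star '' (D ∪ u '' S) := by
      rw [Set.image_star]
    rw [h1]
    exact hs.image star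
  have hm : (Submonoid.closure ((D ∪ u '' S) ∪ star (D ∪ u '' S)) : Set (H →L[ℂ] H)).Countable := by
    rw [Submonoid.closure_eq_mrange, MonoidHom.coe_mrange]
    have := (hs.union hstar).to_subtype
    have : Countable (FreeMonoid ((D ∪ u '' S) ∪ star (D ∪ u '' S) : Set (H →L[ℂ] H))) :=
      inferInstanceAs (Countable (List _))
    exact Set.countable_range _
  have hsep : TopologicalSpace.IsSeparable ((StarAlgebra.adjoin ℂ (D ∪ u '' S)).topologicalClosure :
      Set (H →L[ℂ] H)) := by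
    rw [StarSubalgebra.topologicalClosure_coe]
    refine TopologicalSpace.IsSeparable.closure ?_
    have h1 := StarAlgebra.adjoin_eq_span (R := ℂ) (D ∪ u '' S)
    have h2 : (StarAlgebra.adjoin ℂ (D ∪ u '' S) : Set (H →L[ℂ] H)) =
        (Submodule.span ℂ (Submonoid.closure ((D ∪ u '' S) ∪ star (D ∪ u '' S)) :
          Set (H →L[ℂ] H)) : Set (H →L[ℂ] H)) := by
      rw [← h1]
      rfl
    rw [h2]
    exact hm.isSeparable.span
  have hle : Alg b u S ≤ (StarAlgebra.adjoin ℂ (D ∪ u '' S)).topologicalClosure := by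
    refine AlgA_le b u (StarSubalgebra.isClosed_topologicalClosure _) ?_ ?_
    · intro x hx
      have h1 : x ∈ closure D := hBD hx
      refine closure_mono ?_ h1
      exact Set.subset_union_left.trans (StarAlgebra.subset_adjoin ℂ _)
    · intro i hi
      exact StarSubalgebra.le_topologicalClosure _
        (StarAlgebra.subset_adjoin ℂ _ (Or.inr ⟨i, hi, rfl⟩))
  obtain ⟨t, htA, htc, hAt⟩ := (hsep.mono hle).exists_countable_dense_subset
  have hne : t.Nonempty := by
    have h0 : (0 : H →L[ℂ] H) ∈ closure t := hAt (zero_mem (Alg b u S))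
    exact closure_nonempty_iff.1 ⟨0, h0⟩
  obtain ⟨e, he⟩ := htc.exists_eq_range hne
  refine ⟨e, fun n => htA (he ▸ Set.mem_range_self n), fun x hx ε hε => ?_⟩
  obtain ⟨y, hy, hxy⟩ := Metric.mem_closure_iff.1 (hAt hx) ε hε
  rw [he] at hy
  obtain ⟨n, rfl⟩ := hy
  exact ⟨n, by rwa [dist_eq_norm] at hxy⟩

theorem Alg_comm {S : Set I} (hT : ∀ i ∈ S, b.T * u i = u i * b.T) {x : H →L[ℂ] H}
    (hx : x ∈ Alg b u S) : b.T * x = x * b.T := by
  have hU := b.unitT
  have h1 : star b.T * b.T = 1 := (Unitary.mem_iff.1 hU).1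
  have h2 : b.T * star b.T = 1 := (Unitary.mem_iff.1 hU).2
  have hcl : IsClosed {y : H →L[ℂ] H | b.T * y = y * b.T} :=
    isClosed_eq (continuous_const.mul continuous_id) (continuous_id.mul continuous_const)
  have hsub : (StarAlgebra.adjoin ℂ ((b.B0 : Set (H →L[ℂ] H)) ∪ u '' S) : Set (H →L[ℂ] H)) ⊆
      {y : H →L[ℂ] H | b.T * y = y * b.T} := by
    intro y hy
    refine StarAlgebra.adjoin_induction (R := ℂ) (s := (b.B0 : Set (H →L[ℂ] H)) ∪ u '' S)
      (p := fun y _ => b.T * y = y * b.T) ?_ ?_ ?_ ?_ ?_ hy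
    · rintro z (hz | ⟨i, hi, rfl⟩)
      · exact b.comm z hz
      · exact hT i hi
    · intro r
      exact (Algebra.commutes r b.T).symm
    · intro z w _ _ hz hw
      rw [mul_add, add_mul, hz, hw]
    · intro z w _ _ hz hw
      rw [← mul_assoc, hz, mul_assoc, hw, mul_assoc]
    · intro z _ hz
      have h3 : star z * star b.T = star b.T * star z := by
        rw [← star_mul, hz, star_mul]
      calc b.T * star z = b.T * star z * (star b.T * b.T) := by rw [h1, mul_one]
        _ = b.T * (star z * star b.T) * b.T := by simp only [mul_assoc]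
        _ = b.T * (star b.T * star z) * b.T := by rw [h3]
        _ = (b.T * star b.T) * star z * b.T := by simp only [mul_assoc]
        _ = star z * b.T := by rw [h2, one_mul]
  exact closure_minimal hsub hcl hx

end A

end P070
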