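import Vale.Agent.Lib.P070.Basic

/-!
# P070: the algebra `gen C u`
-/

open Filter Topology

namespace P070

section Gen

variable {B : Type} [CStarAlgebra B]

theorem le_gen (C : StarSubalgebra ℂ B) (u : B) : C ≤ gen C u := by
  intro x hx
  refine StarSubalgebra.le_topologicalClosure _ ?_
  exact StarAlgebra.subset_adjoin ℂ _ (Or.inl hx)

theorem mem_gen (C : StarSubalgebra ℂ B) (u : B) : u ∈ gen C u := by
  refine StarSubalgebra.le_topologicalClosure _ ?_
  exact StarAlgebra.subset_adjoin ℂ _ (Or.inr rfl)

theorem isClosed_gen (C : StarSubalgebra ℂ B) (u : B) : IsClosed (gen C u : Set B) :=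
  StarSubalgebra.isClosed_topologicalClosure _

/-- induction principle (G): a norm closed additive set containing `1` and stable under right
multiplication by `C`, `u`, `u^*` contains `gen C u` -/
theorem gen_induction (C : StarSubalgebra ℂ B) (u : B) (L : Set B) (h1 : (1 : B) ∈ L)
    (hadd : ∀ x ∈ L, ∀ y ∈ L, x + y ∈ L) (hC : ∀ x ∈ L, ∀ c ∈ C, x * c ∈ L)
    (hu : ∀ x ∈ L, x * u ∈ L) (hu' : ∀ x ∈ L, x * star u ∈ L) (hcl : IsClosed L) :
    ∀ x ∈ gen C u, x ∈ L := by
  have key : ∀ x ∈ StarAlgebra.adjoin ℂ ((C : Set B) ∪ {u}), ∀ y ∈ L, y * x ∈ L := by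
    intro x hx
    have hx' : x ∈ Algebra.adjoin ℂ (((C : Set B) ∪ {u}) ∪ star ((C : Set B) ∪ {u})) := by
      rw [← StarAlgebra.adjoin_toSubalgebra]
      exact hx
    refine Algebra.adjoin_induction (p := fun x _ => ∀ y ∈ L, y * x ∈ L) ?_ ?_ ?_ ?_ hx'
    · rintro z ((hz | hz) | hz) y hy
      · exact hC y hy z hz
      · rw [Set.mem_singleton_iff] at hz
        rw [hz]
        exact hu y hy
      · rw [Set.mem_star] at hz
        rcases hz with hz | hz
        · have : star (star z) ∈ C := star_mem (show star z ∈ C from hz)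
          rw [star_star] at this
          exact hC y hy z this
        · rw [Set.mem_singleton_iff] at hz
          have : z = star u := by rw [← hz, star_star]
          rw [this]
          exact hu' y hy
    · intro r y hy
      exact hC y hy _ (algebraMap_mem C r)
    · intro a b _ _ ha hb y hy
      rw [mul_add]
      exact hadd _ (ha y hy) _ (hb y hy)
    · intro a b _ _ ha hb y hy
      rw [← mul_assoc]
      exact hb _ (ha y hy)
  intro x hx
  have hx2 : x ∈ closure (StarAlgebra.adjoin ℂ ((C : Set B) ∪ {u}) : Set B) := hx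
  refine closure_minimal ?_ hcl hx2
  intro z hz
  have := key z hz 1 h1
  rwa [one_mul] at this

end Gen

end P070
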