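import Vale.Agent.Lib.P070.BasicA

/-!
# P070: limits of `Rigid` and `Link`
-/

open Filter Topology

namespace P070

variable {B : Type} [CStarAlgebra B]

/-- compression by two projections of germs does not increase the norm -/
theorem norm_comp_le (g h : Germ B) (y : B) (n m : ℕ) : ‖h.p n * y * g.p m‖ ≤ ‖y‖ := by
  have h1 : ‖h.p n * y‖ ≤ ‖y‖ := by
    refine (norm_mul_le _ _).trans ?_
    have := mul_le_mul_of_nonneg_right (h.norm_p_le n) (norm_nonneg y)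
    rwa [one_mul] at this
  refine (norm_mul_le _ _).trans ?_
  have h2 := mul_le_mul h1 (g.norm_p_le m) (norm_nonneg _) (norm_nonneg y)
  rwa [mul_one] at h2

/-- limits of rigid -/
theorem Rigid.lim [Nontrivial B] {C : StarSubalgebra ℂ B} {g : Germ B} {𝒞 : Set (StarSubalgebra ℂ B)}
    (happ : ∀ x ∈ C, ∀ ε : ℝ, 0 < ε → ∃ D ∈ 𝒞, ∃ x' ∈ D, ‖x - x'‖ < ε)
    (h : ∀ D ∈ 𝒞, Rigid D g) : Rigid C g := by
  intro x hx
  refine exists_scalar_of_approx g x fun ε hε => ?_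
  obtain ⟨D, hD, x', hx', hxx⟩ := happ x hx (ε / 2) (half_pos hε)
  obtain ⟨c, hc⟩ := h D hD x' hx'
  have h1 : ∀ᶠ n in atTop, ‖g.p n * x' * g.p n - c • g.p n‖ < ε / 2 :=
    hc.eventually (gt_mem_nhds (half_pos hε))
  obtain ⟨n0, hn0⟩ := Filter.eventually_atTop.1 h1
  refine ⟨c, n0, fun n hn => ?_⟩
  have h2 := hn0 n hn
  have h3 := norm_comp_le g g (x - x') n n
  have e : g.p n * x * g.p n - c • g.p n =
      g.p n * (x - x') * g.p n + (g.p n * x' * g.p n - c • g.p n) := by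
    rw [mul_sub, sub_mul]
    abel
  rw [e]
  refine (norm_add_le _ _).trans ?_
  linarith

/-- limits of linked -/
theorem Link.lim {C : StarSubalgebra ℂ B} {g h : Germ B} {𝒞 : Set (StarSubalgebra ℂ B)}
    (happ : ∀ x ∈ C, ∀ ε : ℝ, 0 < ε → ∃ D ∈ 𝒞, ∃ x' ∈ D, ‖x - x'‖ < ε)
    (hl : Link C g h) : ∃ D ∈ 𝒞, Link D g h := by
  obtain ⟨a, ha, δ, hδ, H⟩ := hl
  obtain ⟨D, hD, a', ha', haa⟩ := happ a ha (δ / 2) (half_pos hδ)
  refine ⟨D, hD, a', ha', δ / 2, half_pos hδ, fun n m => ?_⟩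
  have h1 := H n m
  have h2 := norm_comp_le g h (a - a') n m
  have e : h.p n * a * g.p m = h.p n * (a - a') * g.p m + h.p n * a' * g.p m := by
    rw [mul_sub, sub_mul]
    abel
  rw [e] at h1
  have h3 := norm_add_le (h.p n * (a - a') * g.p m) (h.p n * a' * g.p m)
  linarith

end P070
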