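import Vale.Agent.Lib.P070.BasicA

/-!
# P070: `PI`: norm control, correction, limits
-/

open Filter Topology

namespace P070

variable {B : Type} [CStarAlgebra B]

theorem cfc_mul_self' {a : B} (ha : IsSelfAdjoint a) {f : ℝ → ℝ}
    (hf : ContinuousOn f (spectrum ℝ a)) : cfc f a * a = cfc (fun t => f t * t) a := by
  have h := cfc_mul f (fun t => t) a hf continuousOn_id
  rw [cfc_id' ℝ a ha] at h
  exact h.symm

/-- `(1/√t)` of a positive invertible element conjugates it to `1` -/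
theorem conj_inv_sqrt {a : B} (ha : IsSelfAdjoint a) (hpos : ∀ t ∈ spectrum ℝ a, 0 < t) :
    star (cfc (fun t : ℝ => (Real.sqrt t)⁻¹) a) * a * cfc (fun t : ℝ => (Real.sqrt t)⁻¹) a = 1 := by
  have hc : ContinuousOn (fun t : ℝ => (Real.sqrt t)⁻¹) (spectrum ℝ a) := by
    refine ContinuousOn.inv₀ (Real.continuous_sqrt.continuousOn) fun t ht => ?_
    exact (Real.sqrt_pos.mpr (hpos t ht)).ne'
  have hsa : IsSelfAdjoint (cfc (fun t : ℝ => (Real.sqrt t)⁻¹) a) := cfc_predicate _ _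
  rw [hsa.star_eq]
  rw [cfc_mul_self' ha hc,
    ← cfc_mul (fun t : ℝ => (Real.sqrt t)⁻¹ * t) (fun t : ℝ => (Real.sqrt t)⁻¹) a
      (hc.mul continuousOn_id) hc]
  rw [← cfc_one ℝ a ha]
  refine cfc_congr fun t ht => ?_
  have h2 : 0 < Real.sqrt t := Real.sqrt_pos.mpr (hpos t ht)
  have h3 : Real.sqrt t * Real.sqrt t = t := Real.mul_self_sqrt (hpos t ht).le
  show (Real.sqrt t)⁻¹ * t * (Real.sqrt t)⁻¹ = 1
  field_simp
  nlinarith

/-- correction: if `x ∈ C`, `‖x^* y^* y x - 1‖ < 1` (or `x^*y^*y x ≥ δ > 0`) then some `x' ∈ C` makes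
`y x'` an isometry -/
theorem exists_isometry_of_near {C : StarSubalgebra ℂ B} (hC : IsClosed (C : Set B)) {y x : B}
    (hy : y ∈ C) (hx : x ∈ C) (hunit : IsUnit (star (y * x) * (y * x))) :
    ∃ x' ∈ C, star (y * x') * (y * x') = 1 := by
  set a : B := star (y * x) * (y * x) with ha
  have hsa : IsSelfAdjoint a := IsSelfAdjoint.star_mul_self _
  have hpos : ∀ t ∈ spectrum ℝ a, 0 < t := by
    intro t ht
    have h0 : 0 ≤ t := spectrum_star_mul_self_nonneg t ht
    refine lt_of_le_of_ne h0 fun h => ?_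
    rw [← h] at ht
    exact (spectrum.zero_notMem ℝ hunit) ht
  have haC : a ∈ C := mul_mem (star_mem (mul_mem hy hx)) (mul_mem hy hx)
  have : IsClosed (C : Set B) := hC
  have hr : cfc (fun t : ℝ => (Real.sqrt t)⁻¹) a ∈ C := cfc_mem (𝕜' := ℂ) _ haC
  refine ⟨x * cfc (fun t : ℝ => (Real.sqrt t)⁻¹) a, mul_mem hx hr, ?_⟩
  have h1 := conj_inv_sqrt hsa hpos
  have e : star (y * (x * cfc (fun t : ℝ => (Real.sqrt t)⁻¹) a)) *
      (y * (x * cfc (fun t : ℝ => (Real.sqrt t)⁻¹) a)) =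
      star (cfc (fun t : ℝ => (Real.sqrt t)⁻¹) a) * (star (y * x) * (y * x)) *
        cfc (fun t : ℝ => (Real.sqrt t)⁻¹) a := by
    simp only [star_mul, mul_assoc]
  rw [e, ← ha]
  exact h1

/-- norm control: `y ∈ C`, `‖y‖ = 1`: there is `x ∈ C` with `‖x‖ ≤ 2` and `y x` an isometry.
Let `b = (y^*y - 1/2)_+` (nonzero, `C` closed under continuous functional calculus), `w ∈ C` with
`b^{1/2} w` an isometry (PI); `z = b^{1/2} w`, `z^* y^*y z ≥ 1/2`, `x = z (z^*y^*y z)^{-1/2}`. -/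
theorem PI.bound {C : StarSubalgebra ℂ B} (hC : IsClosed (C : Set B)) (h : PI C) {y : B}
    (hy : y ∈ C) (hy1 : ‖y‖ = 1) :
    ∃ x ∈ C, ‖x‖ ≤ 2 ∧ star (y * x) * (y * x) = 1 := by
  have : IsClosed (C : Set B) := hC
  letI := CStarAlgebra.spectralOrder B
  letI := CStarAlgebra.spectralOrderedRing B
  have hy0 : y ≠ 0 := by
    intro h0
    rw [h0, norm_zero] at hy1
    exact zero_ne_one hy1
  have : Nontrivial B := ⟨y, 0, hy0⟩
  set a : B := star y * y with ha
  have hsa : IsSelfAdjoint a := IsSelfAdjoint.star_mul_self _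
  have ha0 : 0 ≤ a := star_mul_self_nonneg y
  have haC : a ∈ C := mul_mem (star_mem hy) hy
  have hna : ‖a‖ = 1 := by
    rw [ha, CStarRing.norm_star_mul_self, hy1, mul_one]
  have h1mem : (1 : ℝ) ∈ spectrum ℝ a := by
    have := CStarAlgebra.norm_mem_spectrum_of_nonneg (a := a) ha0
    rwa [hna] at this
  set g : ℝ → ℝ := fun t => Real.sqrt (max (t - 1 / 2) 0) with hg
  have hgc : Continuous g := by
    rw [hg]
    fun_prop
  set y1 : B := cfc g a with hy1def
  have hy1C : y1 ∈ C := cfc_mem (𝕜' := ℂ) _ haC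
  have hy1sa : IsSelfAdjoint y1 := cfc_predicate _ _
  have hy1ne : y1 ≠ 0 := by
    intro h0
    have h2 : spectrum ℝ y1 = g '' spectrum ℝ a := cfc_map_spectrum g a hsa hgc.continuousOn
    have h3 : g 1 ∈ spectrum ℝ y1 := by
      rw [h2]
      exact ⟨1, h1mem, rfl⟩
    rw [h0, spectrum.zero_eq] at h3
    have h4 : g 1 = 0 := h3
    have h5 : 0 < g 1 := by
      rw [hg]
      apply Real.sqrt_pos.mpr
      norm_num
    linarith
  obtain ⟨w, hw, hiso⟩ := h y1 hy1C hy1ne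
  set z : B := y1 * w with hz
  have hzC : z ∈ C := mul_mem hy1C hw
  -- `c = z^* a z ≥ 1/2`
  set c : B := star (y * z) * (y * z) with hc
  have hcsa : IsSelfAdjoint c := IsSelfAdjoint.star_mul_self _
  have hc2 : c = star w * (y1 * a * y1) * w := by
    rw [hc, hz, star_mul, star_mul, hy1sa.star_eq, ha]
    simp only [mul_assoc]
  have h6 : (1 / 2 : ℝ) • (y1 * y1) ≤ y1 * a * y1 := by
    have e1 : y1 * y1 = cfc (fun t => g t * g t) a := by
      rw [hy1def, ← cfc_mul g g a hgc.continuousOn hgc.continuousOn]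
    have e2 : y1 * a * y1 = cfc (fun t => g t * t * g t) a := by
      rw [hy1def, cfc_mul_self' hsa hgc.continuousOn,
        ← cfc_mul (fun t => g t * t) g a (hgc.mul continuous_id).continuousOn hgc.continuousOn]
    rw [e1, e2, ← cfc_smul (1 / 2 : ℝ) (fun t => g t * g t) a (hgc.mul hgc).continuousOn]
    refine cfc_mono (fun t ht => ?_) ((hgc.mul hgc).const_smul (1 / 2 : ℝ)).continuousOn
      ((hgc.mul continuous_id).mul hgc).continuousOn
    have e4 : g t * g t = max (t - 1 / 2) 0 := by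
      rw [hg]
      exact Real.mul_self_sqrt (le_max_right _ _)
    show (1 / 2 : ℝ) * (g t * g t) ≤ g t * t * g t
    have e5 : g t * t * g t = t * (g t * g t) := by ring
    rw [e5, e4]
    rcases le_total (t - 1 / 2) 0 with h7 | h7
    · rw [max_eq_right h7]; simp
    · rw [max_eq_left h7]; nlinarith
  have h7 : (1 / 2 : ℝ) • (1 : B) ≤ c := by
    have h8 : star w * ((1 / 2 : ℝ) • (y1 * y1)) * w ≤ star w * (y1 * a * y1) * w :=
      star_left_conjugate_le_conjugate h6 w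
    rw [← hc2] at h8
    have h9 : star w * ((1 / 2 : ℝ) • (y1 * y1)) * w = (1 / 2 : ℝ) • (1 : B) := by
      rw [mul_smul_comm, smul_mul_assoc, ← hiso, hz, star_mul, hy1sa.star_eq]
      simp only [mul_assoc]
    rwa [h9] at h8
  have h10 : ∀ t ∈ spectrum ℝ c, 1 / 2 ≤ t := by
    intro t ht
    have h11 : algebraMap ℝ B (1 / 2) ≤ c := by
      rw [Algebra.algebraMap_eq_smul_one]
      exact h7
    exact (algebraMap_le_iff_le_spectrum hcsa).mp h11 t ht
  have hpos : ∀ t ∈ spectrum ℝ c, 0 < t := fun t ht => lt_of_lt_of_le (by norm_num) (h10 t ht)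
  have hcC : c ∈ C := mul_mem (star_mem (mul_mem hy hzC)) (mul_mem hy hzC)
  set r : B := cfc (fun t : ℝ => (Real.sqrt t)⁻¹) c with hr
  have hrC : r ∈ C := cfc_mem (𝕜' := ℂ) _ hcC
  refine ⟨z * r, mul_mem hzC hrC, ?_, ?_⟩
  · have hz1 : ‖z‖ ≤ 1 := by
      have h12 : ‖z‖ * ‖z‖ = 1 := by
        rw [← CStarRing.norm_star_mul_self, hiso, norm_one]
      nlinarith [norm_nonneg z]
    have hr2 : ‖r‖ ≤ 2 := by
      refine norm_cfc_le (by norm_num) fun t ht => ?_
      have h13 : (1 / 2 : ℝ) ≤ Real.sqrt t := by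
        rw [Real.le_sqrt (by norm_num) (hpos t ht).le]
        have := h10 t ht
        linarith
      rw [Real.norm_eq_abs, abs_of_nonneg (by positivity)]
      calc (Real.sqrt t)⁻¹ ≤ (1 / 2 : ℝ)⁻¹ := inv_anti₀ (by norm_num) h13
        _ = 2 := by norm_num
    calc ‖z * r‖ ≤ ‖z‖ * ‖r‖ := norm_mul_le _ _
      _ ≤ 1 * 2 := mul_le_mul hz1 hr2 (norm_nonneg _) zero_le_one
      _ = 2 := by norm_num
  · have h1 := conj_inv_sqrt hcsa hpos
    have e : star (y * (z * r)) * (y * (z * r)) = star r * (star (y * z) * (y * z)) * r := by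
      simp only [star_mul, mul_assoc]
    rw [e, ← hc]
    exact h1

/-- limits of PI: approximate `y` (`‖y‖ = 1`) by `y' ∈ D`, use `PI.bound` in `D`; then
`x^* y^*y x` is close to `1`, invertible in `C`, correct by its inverse square root. -/
theorem PI.lim {C : StarSubalgebra ℂ B} (hC : IsClosed (C : Set B)) {𝒞 : Set (StarSubalgebra ℂ B)}
    (hle : ∀ D ∈ 𝒞, D ≤ C) (hcl : ∀ D ∈ 𝒞, IsClosed (D : Set B))
    (happ : ∀ x ∈ C, ∀ ε : ℝ, 0 < ε → ∃ D ∈ 𝒞, ∃ x' ∈ D, ‖x - x'‖ < ε)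
    (h : ∀ D ∈ 𝒞, PI D) : PI C := by
  intro y hy hy0
  have hny : 0 < ‖y‖ := norm_pos_iff.mpr hy0
  set y0 : B := ((‖y‖⁻¹ : ℝ) : ℂ) • y with hy0def
  have hy0C : y0 ∈ C := C.smul_mem hy _
  have hy0n : ‖y0‖ = 1 := by
    rw [hy0def, norm_smul, Complex.norm_real, norm_inv, norm_norm, inv_mul_cancel₀ hny.ne']
  obtain ⟨D, hD, y1, hy1, hd⟩ := happ y0 hy0C (1 / 64) (by norm_num)
  have hn1 : |‖y1‖ - 1| < 1 / 64 := by
    have h9 := abs_norm_sub_norm_le y1 y0
    rw [hy0n, norm_sub_rev] at h9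
    exact lt_of_le_of_lt h9 hd
  have hn1' := abs_lt.mp hn1
  have hn1pos : 0 < ‖y1‖ := by linarith [hn1'.1]
  set y2 : B := ((‖y1‖⁻¹ : ℝ) : ℂ) • y1 with hy2def
  have hy2D : y2 ∈ D := D.smul_mem hy1 _
  have hy2n : ‖y2‖ = 1 := by
    rw [hy2def, norm_smul, Complex.norm_real, norm_inv, norm_norm, inv_mul_cancel₀ hn1pos.ne']
  have h12 : ‖y1 - y2‖ < 1 / 64 := by
    have e : y1 - y2 = (((‖y1‖ - 1) * ‖y1‖⁻¹ : ℝ) : ℂ) • y1 := by
      have e9 : ((‖y1‖ - 1) * ‖y1‖⁻¹ : ℝ) = 1 - ‖y1‖⁻¹ := by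
        rw [sub_mul, mul_inv_cancel₀ hn1pos.ne', one_mul]
      rw [e9, Complex.ofReal_sub, sub_smul, Complex.ofReal_one, one_smul, hy2def]
    rw [e, norm_smul, Complex.norm_real, norm_mul, norm_inv, norm_norm, mul_assoc,
      inv_mul_cancel₀ hn1pos.ne', mul_one]
    exact hn1
  have h02 : ‖y0 - y2‖ < 1 / 32 := by
    have : y0 - y2 = (y0 - y1) + (y1 - y2) := by abel
    rw [this]
    refine lt_of_le_of_lt (norm_add_le _ _) ?_
    linarith
  obtain ⟨x, hxD, hx2, hx⟩ := (h D hD).bound (hcl D hD) hy2D hy2n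
  have hxC : x ∈ C := hle D hD hxD
  have hunit : IsUnit (star (y0 * x) * (y0 * x)) := by
    have e : star (y0 * x) * (y0 * x) = 1 - (-(star (y0 * x) * ((y0 - y2) * x) +
        star ((y0 - y2) * x) * (y2 * x))) := by
      rw [← hx]
      rw [sub_neg_eq_add, sub_mul, star_sub]
      noncomm_ring
    rw [e]
    have hnb : ‖-(star (y0 * x) * ((y0 - y2) * x) + star ((y0 - y2) * x) * (y2 * x))‖ < 1 := by
      rw [norm_neg]
      have f1 : ‖y0 * x‖ ≤ 2 := by
        refine (norm_mul_le _ _).trans ?_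
        rw [hy0n, one_mul]
        exact hx2
      have f2 : ‖y2 * x‖ ≤ 2 := by
        refine (norm_mul_le _ _).trans ?_
        rw [hy2n, one_mul]
        exact hx2
      have f3 : ‖(y0 - y2) * x‖ ≤ 1 / 32 * 2 :=
        (norm_mul_le _ _).trans (mul_le_mul h02.le hx2 (norm_nonneg _) (by norm_num))
      have f4 : ‖star (y0 * x) * ((y0 - y2) * x)‖ ≤ 2 * (1 / 32 * 2) := by
        refine (norm_mul_le _ _).trans ?_
        rw [norm_star]
        exact mul_le_mul f1 f3 (norm_nonneg _) (by norm_num)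
      have f5 : ‖star ((y0 - y2) * x) * (y2 * x)‖ ≤ (1 / 32 * 2) * 2 := by
        refine (norm_mul_le _ _).trans ?_
        rw [norm_star]
        exact mul_le_mul f3 f2 (norm_nonneg _) (by norm_num)
      refine lt_of_le_of_lt (norm_add_le _ _) ?_
      linarith
    exact isUnit_one_sub_of_norm_lt_one hnb
  obtain ⟨x', hx'C, hx'⟩ := exists_isometry_of_near hC hy0C hxC hunit
  refine ⟨((‖y‖⁻¹ : ℝ) : ℂ) • x', C.smul_mem hx'C _, ?_⟩
  have e2 : y * (((‖y‖⁻¹ : ℝ) : ℂ) • x') = y0 * x' := by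
    rw [hy0def, mul_smul_comm, smul_mul_assoc]
  rw [e2]
  exact hx'

end P070
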