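import Vale.Agent.Lib.P070.Defs

/-!
# P070: basic facts on germs, `Rigid`, `Link`
-/

open Filter Topology

namespace P070

variable {B : Type} [CStarAlgebra B]

/-- `p n` as a partial sum: one step -/
theorem BasicA_p_succ (g : Germ B) (n : ℕ) :
    g.p (n + 1) = g.p n - g.t n * star (g.t n) := by
  unfold Germ.p
  rw [Finset.sum_range_succ]
  abel

theorem BasicA_sum_mul (g : Germ B) (n k : ℕ) :
    (∑ j ∈ Finset.range n, g.t j * star (g.t j)) * g.t k = if k < n then g.t k else 0 := by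
  rw [Finset.sum_mul]
  by_cases h : k < n
  · rw [if_pos h, Finset.sum_eq_single k]
    · rw [mul_assoc, g.orth, if_pos rfl, mul_one]
    · intro j _ hj
      rw [mul_assoc, g.orth, if_neg hj, mul_zero]
    · intro hk
      exact absurd (Finset.mem_range.2 h) hk
  · rw [if_neg h]
    refine Finset.sum_eq_zero fun j hj => ?_
    rw [mul_assoc, g.orth, if_neg, mul_zero]
    have := Finset.mem_range.1 hj
    omega

namespace Germ

theorem star_p (g : Germ B) (n : ℕ) : star (g.p n) = g.p n := by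
  unfold Germ.p
  rw [star_sub, star_one, star_sum]
  congr 1
  refine Finset.sum_congr rfl fun k _ => ?_
  rw [star_mul, star_star]

theorem p_mul_t_of_lt (g : Germ B) {k n : ℕ} (h : k < n) : g.p n * g.t k = 0 := by
  unfold Germ.p
  rw [sub_mul, BasicA_sum_mul, if_pos h, one_mul, sub_self]

/-- `t_k^* p_n = 0` for `k < n` -/
theorem star_t_mul_p (g : Germ B) {k n : ℕ} (h : k < n) : star (g.t k) * g.p n = 0 := by
  have h1 := congrArg star (g.p_mul_t_of_lt h)
  rwa [star_mul, g.star_p, star_zero] at h1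

theorem p_mul_t_of_le (g : Germ B) {k n : ℕ} (h : n ≤ k) : g.p n * g.t k = g.t k := by
  unfold Germ.p
  rw [sub_mul, BasicA_sum_mul, if_neg (not_lt.2 h), one_mul, sub_zero]

theorem p_mul_p_of_le (g : Germ B) {m n : ℕ} (h : m ≤ n) : g.p n * g.p m = g.p n := by
  change g.p n * (1 - ∑ k ∈ Finset.range m, g.t k * star (g.t k)) = g.p n
  rw [mul_sub, mul_one, Finset.mul_sum, Finset.sum_eq_zero, sub_zero]
  intro k hk
  rw [← mul_assoc, g.p_mul_t_of_lt (lt_of_lt_of_le (Finset.mem_range.1 hk) h), zero_mul]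

theorem p_mul_p_of_le' (g : Germ B) {m n : ℕ} (h : m ≤ n) : g.p m * g.p n = g.p n := by
  have h1 := congrArg star (g.p_mul_p_of_le h)
  rwa [star_mul, g.star_p, g.star_p] at h1

theorem norm_p_le (g : Germ B) (n : ℕ) : ‖g.p n‖ ≤ 1 := by
  have h1 : star (g.p n) * g.p n = g.p n := by
    rw [g.star_p, g.p_mul_p_of_le le_rfl]
  have h2 := CStarRing.norm_star_mul_self (x := g.p n)
  rw [h1] at h2
  by_contra hcon
  push Not at hcon
  nlinarith

theorem norm_p [Nontrivial B] (g : Germ B) (n : ℕ) : ‖g.p n‖ = 1 := by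
  have h1 : star (g.p n) * g.p n = g.p n := by
    rw [g.star_p, g.p_mul_p_of_le le_rfl]
  have h2 := CStarRing.norm_star_mul_self (x := g.p n)
  rw [h1] at h2
  have h3 : ‖g.p n‖ ≠ 0 := by
    intro h
    have h4 := g.p_mul_t_of_le (le_refl n)
    rw [norm_eq_zero.1 h, zero_mul] at h4
    have h5 := g.orth n n
    rw [← h4, mul_zero, if_pos rfl] at h5
    exact zero_ne_one h5
  have h4 : ‖g.p n‖ * 1 = ‖g.p n‖ * ‖g.p n‖ := by rw [mul_one]; exact h2
  exact (mul_left_cancel₀ h3 h4).symm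

theorem p_mem {g : Germ B} {C : StarSubalgebra ℂ B} (h : g.In C) (n : ℕ) : g.p n ∈ C :=
  sub_mem (one_mem C) (sum_mem fun k _ => mul_mem (h k) (star_mem (h k)))

theorem In.mono {g : Germ B} {C C' : StarSubalgebra ℂ B} (h : g.In C) (hC : C ≤ C') : g.In C' :=
  fun k => hC (h k)

/-- norms `‖h.p n * a * g.p m‖` decrease in both variables -/
theorem norm_anti (g h : Germ B) (a : B) {n n' m m' : ℕ} (hn : n ≤ n') (hm : m ≤ m') :
    ‖h.p n' * a * g.p m'‖ ≤ ‖h.p n * a * g.p m‖ := by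
  have e : h.p n' * a * g.p m' = h.p n' * (h.p n * a * g.p m) * g.p m' := by
    calc h.p n' * a * g.p m' = (h.p n' * h.p n) * a * (g.p m * g.p m') := by
          rw [h.p_mul_p_of_le hn, g.p_mul_p_of_le' hm]
      _ = _ := by noncomm_ring
  rw [e]
  calc ‖h.p n' * (h.p n * a * g.p m) * g.p m'‖
      ≤ ‖h.p n'‖ * ‖h.p n * a * g.p m‖ * ‖g.p m'‖ :=
        (norm_mul_le _ _).trans (mul_le_mul_of_nonneg_right (norm_mul_le _ _) (norm_nonneg _))
    _ ≤ 1 * ‖h.p n * a * g.p m‖ * 1 := by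
        refine mul_le_mul ?_ (g.norm_p_le _) (norm_nonneg _) (by positivity)
        exact mul_le_mul_of_nonneg_right (h.norm_p_le _) (norm_nonneg _)
    _ = _ := by rw [one_mul, mul_one]

end Germ

theorem Rigid.anti {C C' : StarSubalgebra ℂ B} {g : Germ B} (h : Rigid C' g) (hC : C ≤ C') :
    Rigid C g :=
  fun x hx => h x (hC hx)

theorem Link.mono {C C' : StarSubalgebra ℂ B} {g h : Germ B} (hl : Link C g h) (hC : C ≤ C') :
    Link C' g h := by
  obtain ⟨a, ha, δ, hδ, H⟩ := hl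
  exact ⟨a, hC ha, δ, hδ, H⟩

theorem Link.symm {C : StarSubalgebra ℂ B} {g h : Germ B} (hl : Link C g h) : Link C h g := by
  obtain ⟨a, ha, δ, hδ, H⟩ := hl
  refine ⟨star a, star_mem ha, δ, hδ, fun n m => ?_⟩
  have h1 := H m n
  have e : star (h.p m * a * g.p n) = g.p n * star a * h.p m := by
    rw [star_mul, star_mul, g.star_p, h.star_p, mul_assoc]
  rwa [← norm_star, e] at h1

/-- not linked: the norms tend to zero -/
theorem not_link_iff {C : StarSubalgebra ℂ B} {g h : Germ B} :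
    ¬ Link C g h ↔ ∀ a ∈ C, ∀ ε : ℝ, 0 < ε → ∃ n0 : ℕ, ∀ n m, n0 ≤ n → n0 ≤ m →
      ‖h.p n * a * g.p m‖ ≤ ε := by
  constructor
  · intro hl a ha ε hε
    by_contra hcon
    push Not at hcon
    apply hl
    refine ⟨a, ha, ε, hε, fun n m => ?_⟩
    obtain ⟨n', m', hn, hm, hlt⟩ := hcon (max n m)
    exact hlt.le.trans (Germ.norm_anti g h a ((le_max_left _ _).trans hn)
      ((le_max_right _ _).trans hm))
  · rintro H ⟨a, ha, δ, hδ, hl⟩
    obtain ⟨n0, hn0⟩ := H a ha (δ / 2) (by positivity)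
    have h1 := hn0 n0 n0 le_rfl le_rfl
    have h2 := hl n0 n0
    linarith

/-- if two scalars are approximately right then they are close -/
theorem BasicA_dist [Nontrivial B] (g : Germ B) {x : B} {c c' : ℂ} {ε ε' : ℝ} {n : ℕ}
    (h : ‖g.p n * x * g.p n - c • g.p n‖ ≤ ε) (h' : ‖g.p n * x * g.p n - c' • g.p n‖ ≤ ε') :
    ‖c - c'‖ ≤ ε + ε' := by
  have e : (c - c') • g.p n = (g.p n * x * g.p n - c' • g.p n) -
      (g.p n * x * g.p n - c • g.p n) := by
    rw [sub_smul]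
    abel
  have h1 : ‖(c - c') • g.p n‖ = ‖c - c'‖ := by
    rw [norm_smul, g.norm_p, mul_one]
  rw [← h1, e]
  refine (norm_sub_le _ _).trans ?_
  linarith

/-- to be rigid at `x` it is enough to be approximately scalar -/
theorem exists_scalar_of_approx [Nontrivial B] (g : Germ B) (x : B)
    (h : ∀ ε : ℝ, 0 < ε → ∃ c : ℂ, ∃ n0 : ℕ, ∀ n, n0 ≤ n → ‖g.p n * x * g.p n - c • g.p n‖ ≤ ε) :
    ∃ c : ℂ, Tendsto (fun n => ‖g.p n * x * g.p n - c • g.p n‖) atTop (𝓝 0) := by
  have hpos : ∀ k : ℕ, (0 : ℝ) < 1 / ((k : ℝ) + 1) := fun k => by positivity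
  choose c n0 hc using fun k : ℕ => h (1 / ((k : ℝ) + 1)) (hpos k)
  have hdist : ∀ j k : ℕ, ‖c j - c k‖ ≤ 1 / ((j : ℝ) + 1) + 1 / ((k : ℝ) + 1) := by
    intro j k
    exact BasicA_dist g (hc j (max (n0 j) (n0 k)) (le_max_left _ _))
      (hc k (max (n0 j) (n0 k)) (le_max_right _ _))
  have hcau : CauchySeq c := by
    rw [Metric.cauchySeq_iff']
    intro ε hε
    obtain ⟨N, hN⟩ := exists_nat_one_div_lt (show (0 : ℝ) < ε / 2 by positivity)
    refine ⟨N, fun n hn => ?_⟩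
    rw [dist_eq_norm]
    have h1 : 1 / ((n : ℝ) + 1) ≤ 1 / ((N : ℝ) + 1) := by
      have : (N : ℝ) ≤ n := by exact_mod_cast hn
      exact one_div_le_one_div_of_le (by positivity) (by linarith)
    have h2 := hdist n N
    linarith
  obtain ⟨c0, hc0⟩ := cauchySeq_tendsto_of_complete hcau
  refine ⟨c0, ?_⟩
  rw [Metric.tendsto_atTop]
  intro ε hε
  obtain ⟨N, hN⟩ := exists_nat_one_div_lt (show (0 : ℝ) < ε / 2 by positivity)
  obtain ⟨N', hN'⟩ := (Metric.tendsto_atTop.1 hc0) (ε / 2) (by positivity)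
  set k := max N N' with hk
  have hk1 : 1 / ((k : ℝ) + 1) < ε / 2 := by
    refine lt_of_le_of_lt ?_ hN
    have : (N : ℝ) ≤ k := by exact_mod_cast le_max_left N N'
    exact one_div_le_one_div_of_le (by positivity) (by linarith)
  have hk2 : ‖c k - c0‖ < ε / 2 := by
    have h2 := hN' k (le_max_right _ _)
    rwa [dist_eq_norm] at h2
  refine ⟨n0 k, fun n hn => ?_⟩
  rw [dist_eq_norm, sub_zero, norm_norm]
  have e : g.p n * x * g.p n - c0 • g.p n =
      (g.p n * x * g.p n - c k • g.p n) + (c k - c0) • g.p n := by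
    rw [sub_smul]
    abel
  rw [e]
  have h3 : ‖(c k - c0) • g.p n‖ = ‖c k - c0‖ := by
    rw [norm_smul, g.norm_p, mul_one]
  have h4 := norm_add_le (g.p n * x * g.p n - c k • g.p n) ((c k - c0) • g.p n)
  have h5 := hc k n hn
  rw [h3] at h4
  linarith

/-- the scalars of `x` are bounded by its norm -/
theorem norm_scalar_le [Nontrivial B] {g : Germ B} {x : B} {c : ℂ}
    (h : Tendsto (fun n => ‖g.p n * x * g.p n - c • g.p n‖) atTop (𝓝 0)) : ‖c‖ ≤ ‖x‖ := by
  have h1 : ∀ n, ‖c‖ - ‖x‖ ≤ ‖g.p n * x * g.p n - c • g.p n‖ := by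
    intro n
    have h2 : ‖c • g.p n‖ = ‖c‖ := by
      rw [norm_smul, g.norm_p, mul_one]
    have h3 : ‖g.p n * x * g.p n‖ ≤ ‖x‖ := by
      calc ‖g.p n * x * g.p n‖ ≤ ‖g.p n‖ * ‖x‖ * ‖g.p n‖ :=
            (norm_mul_le _ _).trans (mul_le_mul_of_nonneg_right (norm_mul_le _ _) (norm_nonneg _))
        _ = ‖x‖ := by rw [g.norm_p, one_mul, mul_one]
    have h4 := norm_sub_norm_le (c • g.p n) (g.p n * x * g.p n)
    rw [norm_sub_rev] at h4
    linarith
  have h2 := ge_of_tendsto' h h1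
  linarith

end P070
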