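import Mathlib

/-!
# P070 (Naimark's problem): definitions (see PROOF.md)
-/

open Filter Topology

namespace P070

section Abstract

variable {B : Type} [CStarAlgebra B]

/-- a germ: a sequence of isometries with orthogonal ranges -/
structure Germ (B : Type) [CStarAlgebra B] where
  t : ℕ → B
  orth : ∀ j k, star (t j) * t k = if j = k then 1 else 0

namespace Germ

/-- `p n = 1 - ∑_{k<n} t_k t_k^*` -/
def p (g : Germ B) (n : ℕ) : B := 1 - ∑ k ∈ Finset.range n, g.t k * star (g.t k)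

/-- the germ lives in `C` -/
def In (g : Germ B) (C : StarSubalgebra ℂ B) : Prop := ∀ k, g.t k ∈ C

end Germ

/-- `g` is rigid on `C`: `p n x p n` is asymptotically scalar -/
def Rigid (C : StarSubalgebra ℂ B) (g : Germ B) : Prop :=
  ∀ x ∈ C, ∃ c : ℂ, Tendsto (fun n => ‖g.p n * x * g.p n - c • g.p n‖) atTop (𝓝 0)

/-- `g` and `h` are linked in `C` -/
def Link (C : StarSubalgebra ℂ B) (g h : Germ B) : Prop :=
  ∃ a ∈ C, ∃ δ : ℝ, 0 < δ ∧ ∀ n m, δ ≤ ‖h.p n * a * g.p m‖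

/-- pure infiniteness and simplicity -/
def PI (C : StarSubalgebra ℂ B) : Prop :=
  ∀ y ∈ C, y ≠ 0 → ∃ x ∈ C, star (y * x) * (y * x) = 1

/-- `C^*(C, u)` -/
noncomputable def gen (C : StarSubalgebra ℂ B) (u : B) : StarSubalgebra ℂ B :=
  (StarAlgebra.adjoin ℂ ((C : Set B) ∪ {u})).topologicalClosure

/-- the situation of Lemma X -/
structure Step (C : StarSubalgebra ℂ B) (t v : Germ B) (u : B) : Prop where
  closed : IsClosed (C : Set B)
  tIn : t.In C
  vIn : v.In C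
  unit : u ∈ unitary B
  ut : ∀ k, u * t.t k = v.t k
  tR : Rigid C t
  vR : Rigid C v
  nl : ¬ Link C t v

end Abstract

section Hilbert

variable (H : Type) [NormedAddCommGroup H] [InnerProductSpace ℂ H] [CompleteSpace H]

/-- the base algebra with its data -/
structure Base where
  B0 : StarSubalgebra ℂ (H →L[ℂ] H)
  T : H →L[ℂ] H
  closed : IsClosed (B0 : Set (H →L[ℂ] H))
  sep : ∃ D : Set (H →L[ℂ] H), D.Countable ∧ D ⊆ (B0 : Set (H →L[ℂ] H)) ∧
    (B0 : Set (H →L[ℂ] H)) ⊆ closure D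
  pi : PI B0
  unitT : T ∈ unitary (H →L[ℂ] H)
  comm : ∀ b ∈ B0, T * b = b * T
  /-- rigid germs of algebras between `B0` and the commutant of `T` tend to `0` strongly -/
  diffuse : ∀ C : StarSubalgebra ℂ (H →L[ℂ] H), B0 ≤ C → (∀ x ∈ C, T * x = x * T) →
    ∀ g : Germ (H →L[ℂ] H), g.In C → Rigid C g → ∀ κ : H,
      Tendsto (fun n => g.p n κ) atTop (𝓝 0)
  /-- a proper isometry -/
  proper : ∃ s ∈ B0, star s * s = 1 ∧ s * star s ≠ 1

variable {H}

/-- the algebra generated by `B0` and `u i`, `i ∈ S` -/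
noncomputable def Alg (b : Base H) {I : Type} (u : I → H →L[ℂ] H) (S : Set I) : StarSubalgebra ℂ (H →L[ℂ] H) :=
  (StarAlgebra.adjoin ℂ ((b.B0 : Set (H →L[ℂ] H)) ∪ u '' S)).topologicalClosure

/-- a system over the well ordered set `I` with base germ `t` -/
structure Sys (b : Base H) (t : Germ (H →L[ℂ] H)) (I : Type) [LinearOrder I] where
  v : I → Germ (H →L[ℂ] H)
  u : I → H →L[ℂ] H
  ha : ∀ i, (v i).In (Alg b u (Set.Iio i))
  hb : ∀ i, Rigid (Alg b u (Set.Iio i)) (v i)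
  hc : ∀ i, ¬ Link (Alg b u (Set.Iio i)) t (v i)
  hu : ∀ i, u i ∈ unitary (H →L[ℂ] H)
  huT : ∀ i, b.T * u i = u i * b.T
  huv : ∀ i k, u i * t.t k = (v i).t k

/-- closed sets of indices -/
def Closed {b : Base H} {t : Germ (H →L[ℂ] H)} {I : Type} [LinearOrder I] (s : Sys b t I)
    (S : Set I) : Prop :=
  ∀ i ∈ S, (s.v i).In (Alg b s.u (S ∩ Set.Iio i))

end Hilbert

section Reps

/-- irreducible unital representation -/
def Irr {A : Type*} [CStarAlgebra A] {K : Type*} [NormedAddCommGroup K] [InnerProductSpace ℂ K]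
    [CompleteSpace K] (π : A →⋆ₐ[ℂ] (K →L[ℂ] K)) : Prop :=
  ∀ L : Submodule ℂ K, IsClosed (L : Set K) → (∀ a, ∀ x ∈ L, π a x ∈ L) → L = ⊥ ∨ L = ⊤

end Reps

end P070
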