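import Vale.Agent.Lib.P070.Defs

/-!
# P070: interface of the parts of the one-step proof (helper36), statements as Props

`B0` separable unital PI; `K = ⊕_c K_c` over the classes of irreducible representations of `B0`;
`u_c t_k = z^c_k`, `u_c ξ_0 = ξ_c`; `A = C^*(B0, u_c)`.
-/

open Filter Topology

namespace P070

universe u v

/-- rigid germ of the whole algebra -/
def RigidT {A : Type} [CStarAlgebra A] (g : Germ A) : Prop :=
  ∀ x : A, ∃ c : ℂ, Tendsto (fun n => ‖g.p n * x * g.p n - c • g.p n‖) atTop (𝓝 0)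

/-- purely infinite and simple -/
def PIT (A : Type) [CStarAlgebra A] : Prop :=
  ∀ y : A, y ≠ 0 → ∃ x, star (y * x) * (y * x) = 1

/-- Part O: a separable unital purely infinite simple algebra -/
def PartO2 : Prop :=
  ∃ (A : Type) (_ : CStarAlgebra A), Nontrivial A ∧ TopologicalSpace.SeparableSpace A ∧ PIT A ∧
    ∃ s : A, star s * s = 1 ∧ s * star s ≠ 1

/-- Part G: every unit vector of an irreducible representation of a separable PI algebra is killed
by a rigid germ -/
def PartG.{w} : Prop :=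
  ∀ (A : Type) [CStarAlgebra A], Nontrivial A → TopologicalSpace.SeparableSpace A → PIT A →
    (∃ s : A, star s * s = 1 ∧ s * star s ≠ 1) →
    ∀ (K : Type w) [NormedAddCommGroup K] [InnerProductSpace ℂ K] [CompleteSpace K]
      (π : A →⋆ₐ[ℂ] (K →L[ℂ] K)), Irr π → ∀ ξ : K, ‖ξ‖ = 1 →
      ∃ g : Germ A, RigidT g ∧ ∀ k, π (star (g.t k)) ξ = 0

/-- Part R: a nontrivial C*-algebra has an irreducible representation (pure states, Krein-Milman);
used only to know that rigid germs of `B0` exist (explicit rigid germ: aperiodic word in `O_2`) -/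
def PartR : Prop :=
  ∀ (A : Type) [CStarAlgebra A], Nontrivial A →
    ∃ (K : Type) (_ : NormedAddCommGroup K) (_ : InnerProductSpace ℂ K) (_ : CompleteSpace K)
      (π : A →⋆ₐ[ℂ] (K →L[ℂ] K)), Nontrivial K ∧ Irr π

/-- unitary equivalence of representations -/
def UEq {A : Type} [CStarAlgebra A] {K : Type u} [NormedAddCommGroup K] [InnerProductSpace ℂ K]
    [CompleteSpace K] {L : Type v} [NormedAddCommGroup L] [InnerProductSpace ℂ L] [CompleteSpace L]
    (π : A →⋆ₐ[ℂ] (K →L[ℂ] K)) (ρ : A →⋆ₐ[ℂ] (L →L[ℂ] L)) : Prop :=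
  ∃ U : K ≃ₗᵢ[ℂ] L, ∀ a x, U (π a x) = ρ a (U x)

/-- the germ property of `A` in a universe -/
def GermProp.{w} (A : Type) [CStarAlgebra A] : Prop :=
  ∀ (K : Type w) [NormedAddCommGroup K] [InnerProductSpace ℂ K] [CompleteSpace K]
    (π : A →⋆ₐ[ℂ] (K →L[ℂ] K)), Irr π → ∀ ξ : K, ‖ξ‖ = 1 →
    ∃ g : Germ A, RigidT g ∧ ∀ k, π (star (g.t k)) ξ = 0

/-- Part C: the construction.  The conclusion: a unital algebra `D`, not finite dimensional (it
contains a proper isometry), with an irreducible representation `π` on some `K : Type`, and all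
irreducible representations (on spaces in two given universes) are equivalent to `π`.
(`K = ⊕_c K_c` over the classes of rigid germs of `A` under equivalence of GNS representations.) -/
def PartC.{u', v'} : Prop :=
  ∀ (A : Type) [CStarAlgebra A], Nontrivial A → (∃ s : A, star s * s = 1 ∧ s * star s ≠ 1) →
    (∃ g : Germ A, RigidT g) → GermProp.{u'} A → GermProp.{v'} A →
    ∃ (D : Type) (_ : CStarAlgebra D), (∃ s : D, star s * s = 1 ∧ s * star s ≠ 1) ∧
      ∃ (K : Type) (_ : NormedAddCommGroup K) (_ : InnerProductSpace ℂ K) (_ : CompleteSpace K)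
        (π : D →⋆ₐ[ℂ] (K →L[ℂ] K)), Nontrivial K ∧ Irr π ∧
        (∀ (L : Type u') [NormedAddCommGroup L] [InnerProductSpace ℂ L] [CompleteSpace L]
          [Nontrivial L] (ρ : D →⋆ₐ[ℂ] (L →L[ℂ] L)), Irr ρ → UEq π ρ) ∧
        (∀ (L : Type v') [NormedAddCommGroup L] [InnerProductSpace ℂ L] [CompleteSpace L]
          [Nontrivial L] (ρ : D →⋆ₐ[ℂ] (L →L[ℂ] L)), Irr ρ → UEq π ρ)

end P070
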