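import Vale.Agent.Lib.P070.Stmt
import Vale.Agent.Lib.P070.Interface2

/-!
# P070: from the parts to the statement
-/

open Filter Topology

namespace P070

universe u v

open Vale.Agent.P070

/-- a nonunital irreducible representation of a unital algebra is unital and irreducible -/
theorem irrep_unital {D : Type} [CStarAlgebra D] {H : Type u} [NormedAddCommGroup H]
    [InnerProductSpace ℂ H] [CompleteSpace H] (π : D →⋆ₙₐ[ℂ] (H →L[ℂ] H)) (h : IsIrrep π) :
    ∃ ρ : D →⋆ₐ[ℂ] (H →L[ℂ] H), (∀ a, ρ a = π a) ∧ Irr ρ ∧ Nontrivial H := by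
  obtain ⟨h0, hirr⟩ := h
  have hmul : ∀ a x, π 1 (π a x) = π a x := by
    intro a x
    rw [← ContinuousLinearMap.mul_apply, ← map_mul, one_mul]
  have hmul' : ∀ a x, π a (π 1 x) = π a x := by
    intro a x
    rw [← ContinuousLinearMap.mul_apply, ← map_mul, mul_one]
  have hone : π 1 = 1 := by
    let L : Submodule ℂ H := LinearMap.eqLocus (π 1 : H →L[ℂ] H).toLinearMap LinearMap.id
    have hLmem : ∀ x, x ∈ L ↔ π 1 x = x := fun x => Iff.rfl
    have hLcl : IsClosed (L : Set H) := by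
      have : (L : Set H) = {x | π 1 x = x} := by
        ext x
        exact hLmem x
      rw [this]
      exact isClosed_eq (π 1).continuous continuous_id
    rcases hirr L hLcl (fun a x _ => (hLmem _).2 (hmul a x)) with hL | hL
    · exfalso
      apply h0
      ext a x
      have h1 : π 1 x ∈ L := (hLmem _).2 (hmul 1 x)
      rw [hL, Submodule.mem_bot] at h1
      rw [← hmul' a x, h1]
      simp
    · ext x
      have h1 : x ∈ L := by rw [hL]; trivial
      exact (hLmem x).1 h1
  have hnt : Nontrivial H := by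
    by_contra hn
    rw [not_nontrivial_iff_subsingleton] at hn
    exact h0 (by ext a x; exact Subsingleton.elim _ _)
  refine ⟨{ toFun := π
            map_one' := hone
            map_mul' := map_mul π
            map_zero' := map_zero π
            map_add' := map_add π
            commutes' := fun r => by
              rw [Algebra.algebraMap_eq_smul_one, map_smul, hone, Algebra.algebraMap_eq_smul_one]
            map_star' := map_star π }, fun a => rfl, ?_, hnt⟩
  intro L hL hinv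
  exact hirr L hL hinv

/-- a unital algebra with a proper isometry is not `K(H)` -/
theorem not_compact {D : Type} [CStarAlgebra D] (hs : ∃ s : D, star s * s = 1 ∧ s * star s ≠ 1)
    {H : Type u} [NormedAddCommGroup H] [InnerProductSpace ℂ H] [CompleteSpace H]
    (φ : D →⋆ₙₐ[ℂ] (H →L[ℂ] H)) (hφ : Function.Injective φ) :
    Set.range φ ≠ {T : H →L[ℂ] H | IsCompactOperator T} := by
  intro hr
  obtain ⟨s, hs1, hs2⟩ := hs
  have hrank : ∀ x : H, IsCompactOperator
      ((ContinuousLinearMap.toSpanSingleton ℂ x).comp (innerSL ℂ x) : H →L[ℂ] H) := by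
    intro x
    have h2 : IsCompactOperator (innerSL ℂ x) := isCompactOperator_of_locallyCompactSpace_dom _
    exact h2.clm_comp (ContinuousLinearMap.toSpanSingleton ℂ x)
  have hone : φ 1 = 1 := by
    ext x
    have h1 : ((ContinuousLinearMap.toSpanSingleton ℂ x).comp (innerSL ℂ x) : H →L[ℂ] H)
        ∈ Set.range φ := by
      rw [hr]
      exact hrank x
    obtain ⟨a, ha⟩ := h1
    have h2 : φ 1 * φ a = φ a := by rw [← map_mul, one_mul]
    rw [ha] at h2
    have h3 := congrArg (fun T : H →L[ℂ] H => T x) h2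
    by_cases hx : x = 0
    · rw [hx]
      simp
    · have h4 : (inner ℂ x x : ℂ) ≠ 0 := inner_self_ne_zero.2 hx
      simp only [ContinuousLinearMap.mul_apply, ContinuousLinearMap.comp_apply,
        innerSL_apply_apply, ContinuousLinearMap.toSpanSingleton_apply, map_smul] at h3
      exact smul_right_injective H h4 h3
  have hcomp : IsCompactOperator (id : H → H) := by
    have h1 : φ 1 ∈ Set.range φ := ⟨1, rfl⟩
    rw [hr, hone] at h1
    exact h1
  have hfd : FiniteDimensional ℂ H := FiniteDimensional.of_isCompactOperator_id (𝕜 := ℂ) hcomp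
  have h1 : star (φ s) * φ s = 1 := by rw [← map_star, ← map_mul, hs1, hone]
  have h2 : φ s * star (φ s) = 1 := by
    have h3 : (star (φ s) : H →L[ℂ] H).toLinearMap * (φ s).toLinearMap = 1 := by
      ext x
      exact congrArg (fun T : H →L[ℂ] H => T x) h1
    have h4 := mul_eq_one_comm.1 h3
    ext x
    exact congrArg (fun T : H →ₗ[ℂ] H => T x) h4
  apply hs2
  apply hφ
  rw [map_mul, map_star, h2, hone]

/-- the final theorem from the parts -/
theorem final_of_parts (hO : PartO2) (hGu : PartG.{u}) (hGv : PartG.{v}) (hG0 : PartG.{0})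
    (hR : PartR) (hC : PartC.{u, v}) :
    ∃ (A : Type) (_ : CStarAlgebra A), PropertyN.{u, v} A ∧
      (∃ (H : Type) (_ : NormedAddCommGroup H) (_ : InnerProductSpace ℂ H) (_ : CompleteSpace H)
        (π : A →⋆ₙₐ[ℂ] (H →L[ℂ] H)), IsIrrep π) ∧
      (∃ s : A, star s * s = 1 ∧ s * star s ≠ 1) := by
  obtain ⟨A, _, hnt, hsep, hpi, hs⟩ := hO
  obtain ⟨K0, _, _, _, π0, hK0, hπ0⟩ := hR A hnt
  obtain ⟨ξ, hξ⟩ := exists_norm_eq K0 (zero_le_one (α := ℝ))
  obtain ⟨g, hg, -⟩ := hG0 A hnt hsep hpi hs K0 π0 hπ0 ξ hξ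
  obtain ⟨D, _, hsD, K, _, _, _, π, hK, hπ, hu, hv⟩ := hC A hnt hs ⟨g, hg⟩
    (hGu A hnt hsep hpi hs) (hGv A hnt hsep hpi hs)
  have hntD : Nontrivial D := by
    obtain ⟨s, _, h2⟩ := hsD
    exact ⟨s * star s, 1, h2⟩
  refine ⟨D, inferInstance, ⟨hntD, ?_⟩, ⟨K, inferInstance, inferInstance, inferInstance,
    (π : D →⋆ₙₐ[ℂ] (K →L[ℂ] K)), ?_, ?_⟩, hsD⟩
  · intro H₁ _ _ _ H₂ _ _ _ π₁ π₂ h₁ h₂
    obtain ⟨ρ₁, e₁, i₁, n₁⟩ := irrep_unital π₁ h₁
    obtain ⟨ρ₂, e₂, i₂, n₂⟩ := irrep_unital π₂ h₂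
    obtain ⟨U₁, hU₁⟩ := hu H₁ ρ₁ i₁
    obtain ⟨U₂, hU₂⟩ := hv H₂ ρ₂ i₂
    refine ⟨U₁.symm.trans U₂, fun a x => ?_⟩
    have h1 : U₁.symm (π₁ a x) = π a (U₁.symm x) := by
      apply U₁.injective
      rw [U₁.apply_symm_apply, hU₁, U₁.apply_symm_apply, e₁]
    rw [LinearIsometryEquiv.trans_apply, LinearIsometryEquiv.trans_apply, h1, hU₂, e₂]
  · intro h
    have h1 : (π : D →⋆ₙₐ[ℂ] (K →L[ℂ] K)) 1 = 0 := by rw [h]; rfl
    have h2 : (π : D →⋆ₙₐ[ℂ] (K →L[ℂ] K)) 1 = π 1 := rfl
    rw [h2, map_one] at h1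
    obtain ⟨x, hx⟩ := exists_ne (0 : K)
    apply hx
    have := congrArg (fun T : K →L[ℂ] K => T x) h1
    simpa using this
  · intro L hL hinv
    exact hπ L hL hinv

end P070
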