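import Vale.Agent.Lib.P070.Defs

/-!
# P070: interface of the parts (statements as Props)
-/

open Filter Topology

namespace P070

/-- Part X (PROOF.md section 1): Lemma X -/
def PartX : Prop :=
  ∀ (B : Type) [CStarAlgebra B] (C : StarSubalgebra ℂ B) (t v : Germ B) (u : B), Step C t v u →
    (∀ s : Germ B, s.In C → Rigid C s → Rigid (gen C u) s) ∧
    (∀ s s' : Germ B, s.In C → Rigid C s → ¬ Link C s t → ¬ Link C s v → ¬ Link C s s' →
      ¬ Link (gen C u) s s')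

/-- Part P (section 2): pure infiniteness of `gen C u` -/
def PartP : Prop :=
  ∀ (H : Type) [NormedAddCommGroup H] [InnerProductSpace ℂ H] [CompleteSpace H]
    (C : StarSubalgebra ℂ (H →L[ℂ] H)) (t v : Germ (H →L[ℂ] H)) (u : H →L[ℂ] H), Step C t v u →
    (∀ κ : H, Tendsto (fun n => t.p n κ) atTop (𝓝 0)) →
    (∀ κ : H, Tendsto (fun n => v.p n κ) atTop (𝓝 0)) → PI C → PI (gen C u)

/-- Part O (section 3): the base algebra exists -/
def PartO : Prop :=
  ∃ (H : Type) (_ : NormedAddCommGroup H) (_ : InnerProductSpace ℂ H) (_ : CompleteSpace H),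
    Nonempty (Base H)

/-- Part U (section 3): the unitary -/
def PartU : Prop :=
  ∀ (H : Type) [NormedAddCommGroup H] [InnerProductSpace ℂ H] [CompleteSpace H]
    (T : H →L[ℂ] H) (t v : Germ (H →L[ℂ] H)), T ∈ unitary (H →L[ℂ] H) →
    (∀ k, T * t.t k = t.t k * T) → (∀ k, T * v.t k = v.t k * T) →
    (∀ κ : H, Tendsto (fun n => t.p n κ) atTop (𝓝 0)) →
    (∀ κ : H, Tendsto (fun n => v.p n κ) atTop (𝓝 0)) →
    ∃ u ∈ unitary (H →L[ℂ] H), (∀ k, u * t.t k = v.t k) ∧ T * u = u * T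

/-- Part S1 (section 4): existence of a maximal system -/
def PartS1 : Prop :=
  ∀ (H : Type) [NormedAddCommGroup H] [InnerProductSpace ℂ H] [CompleteSpace H]
    (b : Base H) (t : Germ (H →L[ℂ] H)), t.In b.B0 → Rigid b.B0 t →
    ∃ (I : Type) (_ : LinearOrder I) (_ : WellFoundedLT I) (s : Sys b t I),
      ∀ g : Germ (H →L[ℂ] H), g.In (Alg b s.u Set.univ) → Rigid (Alg b s.u Set.univ) g →
        Link (Alg b s.u Set.univ) t g

/-- Part S2 (section 4): reflection, pure infiniteness -/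
def PartS2 : Prop :=
  ∀ (H : Type) [NormedAddCommGroup H] [InnerProductSpace ℂ H] [CompleteSpace H]
    (b : Base H) (t : Germ (H →L[ℂ] H)), t.In b.B0 → Rigid b.B0 t →
    ∀ (I : Type) [LinearOrder I] [WellFoundedLT I] (s : Sys b t I),
      Rigid (Alg b s.u Set.univ) t ∧
      (∀ (S : Set I) (g : Germ (H →L[ℂ] H)), Closed s S → g.In (Alg b s.u S) →
        Rigid (Alg b s.u S) g → Rigid (Alg b s.u Set.univ) g) ∧
      (∀ x ∈ Alg b s.u Set.univ, ∃ S : Set I, S.Countable ∧ Closed s S ∧ x ∈ Alg b s.u S) ∧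
      PI (Alg b s.u Set.univ)

/-- Part K (section 5): Kadison transitivity -/
def PartK.{u} : Prop :=
  ∀ (A : Type) [CStarAlgebra A] (K : Type u) [NormedAddCommGroup K] [InnerProductSpace ℂ K]
    [CompleteSpace K] (π : A →⋆ₐ[ℂ] (K →L[ℂ] K)), Irr π → ∀ ξ η : K, ‖ξ‖ = 1 → inner ℂ ξ η = 0 →
    ∃ a : A, π a ξ = η ∧ π (star a) ξ = 0

/-- Part E (section 6): one step of the construction of the germ -/
def PartE.{u} : Prop :=
  ∀ (A : Type) [CStarAlgebra A], Nontrivial A → (∀ y : A, y ≠ 0 → ∃ x, star (y * x) * (y * x) = 1) →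
    (∃ s : A, star s * s = 1 ∧ s * star s ≠ 1) →
    ∀ (K : Type u) [NormedAddCommGroup K] [InnerProductSpace ℂ K]
    [CompleteSpace K] (π : A →⋆ₐ[ℂ] (K →L[ℂ] K)), Irr π → ∀ ξ : K, ‖ξ‖ = 1 →
    ∀ p : A, p * p = p → star p = p → π p ξ = ξ → ∀ (X : Finset A) (ε : ℝ), 0 < ε →
    ∃ s : A, star s * s = 1 ∧ p * s = s ∧ π (star s) ξ = 0 ∧
      ∀ x ∈ X, ‖(p - s * star s) * (x - (inner ℂ ξ (π x ξ) : ℂ) • (1 : A)) *
        (p - s * star s)‖ ≤ ε

end P070
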