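import Vale.Agent.Lib.P070.Gen

/-!
# P070: elementary facts on germs; `cut t v N = ∑_{k<N} v_k t_k^*` (`= u_N`)
-/

open Filter Topology

namespace P070

variable {B : Type} [CStarAlgebra B]

namespace Germ

variable (g : Germ B)

theorem star_mul_self (k : ℕ) : star (g.t k) * g.t k = 1 := by
  rw [g.orth, if_pos rfl]

theorem star_mul_ne {j k : ℕ} (h : j ≠ k) : star (g.t j) * g.t k = 0 := by
  rw [g.orth, if_neg h]

theorem p_zero : g.p 0 = 1 := by
  unfold p
  rw [Finset.sum_range_zero, sub_zero]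

theorem p_succ (n : ℕ) : g.p (n + 1) = g.p n - g.t n * star (g.t n) := by
  unfold p
  rw [Finset.sum_range_succ, sub_sub]

theorem p_mul_t_lt {k n : ℕ} (h : k < n) : g.p n * g.t k = 0 := by
  unfold p
  rw [sub_mul, one_mul, Finset.sum_mul, Finset.sum_eq_single k]
  · rw [mul_assoc, g.star_mul_self, mul_one, sub_self]
  · intro j _ hj
    rw [mul_assoc, g.star_mul_ne hj, mul_zero]
  · intro h1
    exact absurd (Finset.mem_range.2 h) h1

theorem p_mul_t_ge {k n : ℕ} (h : n ≤ k) : g.p n * g.t k = g.t k := by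
  unfold p
  rw [sub_mul, one_mul, Finset.sum_mul, Finset.sum_eq_zero, sub_zero]
  intro j hj
  have h1 : j ≠ k := by
    have := Finset.mem_range.1 hj
    omega
  rw [mul_assoc, g.star_mul_ne h1, mul_zero]

theorem star_t_mul_p_lt {k n : ℕ} (h : k < n) : star (g.t k) * g.p n = 0 := by
  rw [← g.star_p n, ← star_mul, g.p_mul_t_lt h, star_zero]

theorem star_t_mul_p_ge {k n : ℕ} (h : n ≤ k) : star (g.t k) * g.p n = star (g.t k) := by
  rw [← g.star_p n, ← star_mul, g.p_mul_t_ge h]

/-- decreasing projections -/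
theorem p_mul_p {n m : ℕ} (h : n ≤ m) : g.p m * g.p n = g.p m := by
  have h1 : g.p n = 1 - ∑ k ∈ Finset.range n, g.t k * star (g.t k) := rfl
  rw [h1, mul_sub, mul_one, Finset.mul_sum, Finset.sum_eq_zero, sub_zero]
  intro k hk
  rw [← mul_assoc, g.p_mul_t_lt ((Finset.mem_range.1 hk).trans_le h), zero_mul]

theorem p_mul_p' {n m : ℕ} (h : n ≤ m) : g.p n * g.p m = g.p m := by
  have h1 := congrArg star (g.p_mul_p h)
  rwa [star_mul, g.star_p, g.star_p] at h1

theorem p_idem (n : ℕ) : g.p n * g.p n = g.p n := g.p_mul_p le_rfl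

variable {g}

theorem In.p {C : StarSubalgebra ℂ B} (h : g.In C) (n : ℕ) : g.p n ∈ C :=
  sub_mem (one_mem C) (sum_mem fun k _ => mul_mem (h k) (star_mem (h k)))

theorem norm_t_le (g : Germ B) (k : ℕ) : ‖g.t k‖ ≤ 1 := by
  have h2 := CStarRing.norm_star_mul_self (x := g.t k)
  rw [g.star_mul_self] at h2
  have h3 : ‖(1 : B)‖ ≤ 1 := by
    rcases subsingleton_or_nontrivial B with h | h
    · rw [Subsingleton.elim (1 : B) 0, norm_zero]
      exact zero_le_one
    · exact (CStarRing.norm_one).le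
  by_contra h
  push Not at h
  nlinarith

end Germ

/-- `u_N = ∑_{k<N} v_k t_k^*` -/
noncomputable def cut (t v : Germ B) (N : ℕ) : B := ∑ k ∈ Finset.range N, v.t k * star (t.t k)

theorem cut_mem {C : StarSubalgebra ℂ B} {t v : Germ B} (ht : t.In C) (hv : v.In C) (N : ℕ) :
    cut t v N ∈ C :=
  sum_mem fun k _ => mul_mem (hv k) (star_mem (ht k))

theorem star_cut (t v : Germ B) (N : ℕ) : star (cut t v N) = cut v t N := by
  unfold cut
  rw [star_sum]
  refine Finset.sum_congr rfl fun k _ => ?_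
  rw [star_mul, star_star]

variable {t v : Germ B} {u : B}

/-- `u^* v_k = t_k` -/
theorem star_u_mul (hu : u ∈ unitary B) (h : ∀ k, u * t.t k = v.t k) (k : ℕ) :
    star u * v.t k = t.t k := by
  rw [← h k, ← mul_assoc, Unitary.star_mul_self_of_mem hu, one_mul]

theorem u_sub_cut (h : ∀ k, u * t.t k = v.t k) (N : ℕ) : u - cut t v N = u * t.p N := by
  unfold cut Germ.p
  rw [mul_sub, mul_one, Finset.mul_sum]
  congr 1
  refine Finset.sum_congr rfl fun k _ => ?_
  rw [← mul_assoc, h]

theorem u_sub_cut' (hu : u ∈ unitary B) (h : ∀ k, u * t.t k = v.t k) (N : ℕ) :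
    u - cut t v N = v.p N * u := by
  have h1 := u_sub_cut (t := v) (v := t) (u := star u) (star_u_mul hu h) N
  have h2 := congrArg star h1
  rwa [star_sub, star_star, star_cut, star_mul, star_star, v.star_p] at h2

/-- `u p_n^t = p_n^v u` -/
theorem u_mul_p (hu : u ∈ unitary B) (h : ∀ k, u * t.t k = v.t k) (N : ℕ) :
    u * t.p N = v.p N * u := by
  rw [← u_sub_cut h, u_sub_cut' hu h]

theorem u_p_u (hu : u ∈ unitary B) (h : ∀ k, u * t.t k = v.t k) (N : ℕ) :
    u * t.p N * star u = v.p N := by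
  rw [u_mul_p hu h, mul_assoc, Unitary.mul_star_self_of_mem hu, mul_one]

theorem star_u_mul_p (hu : u ∈ unitary B) (h : ∀ k, u * t.t k = v.t k) (N : ℕ) :
    star u * v.p N = t.p N * star u := by
  have h1 := congrArg star (u_mul_p hu h N)
  rw [star_mul, star_mul, t.star_p, v.star_p] at h1
  exact h1.symm

theorem star_u_sub_cut (hu : u ∈ unitary B) (h : ∀ k, u * t.t k = v.t k) (N : ℕ) :
    star u - cut v t N = t.p N * star u := by
  rw [u_sub_cut (t := v) (v := t) (u := star u) (star_u_mul hu h) N, star_u_mul_p hu h]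

theorem norm_cut_le (hu : u ∈ unitary B) (h : ∀ k, u * t.t k = v.t k) (N : ℕ) :
    ‖cut t v N‖ ≤ 1 := by
  have h1 : cut t v N = u * (1 - t.p N) := by
    rw [mul_sub, mul_one, ← u_sub_cut h, sub_sub_cancel]
  have h2 : star (1 - t.p N) * (1 - t.p N) = 1 - t.p N := by
    rw [star_sub, star_one, t.star_p, mul_sub, mul_one, sub_mul, one_mul, t.p_idem, sub_self,
      sub_zero]
  have h3 : ‖1 - t.p N‖ ≤ 1 := by
    have h4 := CStarRing.norm_star_mul_self (x := 1 - t.p N)
    rw [h2] at h4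
    by_contra h
    push Not at h
    nlinarith
  have h5 : ‖u‖ ≤ 1 := by
    have h4 := CStarRing.norm_star_mul_self (x := u)
    rw [Unitary.star_mul_self_of_mem hu] at h4
    have h6 : ‖(1 : B)‖ ≤ 1 := by
      rcases subsingleton_or_nontrivial B with h | h
      · rw [Subsingleton.elim (1 : B) 0, norm_zero]
        exact zero_le_one
      · exact (CStarRing.norm_one).le
    by_contra h
    push Not at h
    nlinarith
  rw [h1]
  refine (norm_mul_le _ _).trans ?_
  calc ‖u‖ * ‖1 - t.p N‖ ≤ 1 * 1 := mul_le_mul h5 h3 (norm_nonneg _) zero_le_one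
    _ = 1 := one_mul 1

end P070
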