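import Mathlib

/-!
# P070: definitions used in the statement
-/

namespace Vale.Agent.P070

/-- irreducible representation: a nonzero *-homomorphism into `B(H)` (not assumed unital) without
closed invariant subspaces other than `0` and `H` -/
def IsIrrep {A : Type*} [NonUnitalCStarAlgebra A] {H : Type*} [NormedAddCommGroup H]
    [InnerProductSpace ℂ H] [CompleteSpace H] (π : A →⋆ₙₐ[ℂ] (H →L[ℂ] H)) : Prop :=
  π ≠ 0 ∧ ∀ L : Submodule ℂ H, IsClosed (L : Set H) → (∀ a, ∀ x ∈ L, π a x ∈ L) → L = ⊥ ∨ L = ⊤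

/-- property (N): `A ≠ 0` and any two irreducible representations (on Hilbert spaces in the
universes `u`, `v`) are unitarily equivalent -/
def PropertyN.{u, v, w} (A : Type w) [NonUnitalCStarAlgebra A] : Prop :=
  Nontrivial A ∧
  ∀ (H₁ : Type u) [NormedAddCommGroup H₁] [InnerProductSpace ℂ H₁] [CompleteSpace H₁]
    (H₂ : Type v) [NormedAddCommGroup H₂] [InnerProductSpace ℂ H₂] [CompleteSpace H₂]
    (π₁ : A →⋆ₙₐ[ℂ] (H₁ →L[ℂ] H₁)) (π₂ : A →⋆ₙₐ[ℂ] (H₂ →L[ℂ] H₂)), IsIrrep π₁ → IsIrrep π₂ →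
    ∃ U : H₁ ≃ₗᵢ[ℂ] H₂, ∀ a x, U (π₁ a x) = π₂ a (U x)

end Vale.Agent.P070
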