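import Mathlib

/-!
# P070: definitions used in the statement
-/

namespace Vale.Agent.P070

universe u v w

/-- a representation of `A` on the Hilbert space `H`: a *-homomorphism `A → B(H)`, not assumed
unital or nonzero -/
abbrev Rep (A : Type w) [NonUnitalCStarAlgebra A] (H : Type u) [NormedAddCommGroup H]
    [InnerProductSpace ℂ H] [CompleteSpace H] : Type (max w u) := A →⋆ₙₐ[ℂ] (H →L[ℂ] H)

section

variable {A : Type w} [NonUnitalCStarAlgebra A]
  {H : Type u} [NormedAddCommGroup H] [InnerProductSpace ℂ H] [CompleteSpace H]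
  {K : Type v} [NormedAddCommGroup K] [InnerProductSpace ℂ K] [CompleteSpace K]

/-- the operator `π(a)` on `H` -/
noncomputable def opOf (π : Rep A H) (a : A) : H →L[ℂ] H := π a

/-- the vector `π(a) x` -/
noncomputable def act (π : Rep A H) (a : A) (x : H) : H := opOf π a x

/-- `E` is a closed subspace invariant under `π(A)` -/
def ClosedInvariant (π : Rep A H) (E : Submodule ℂ H) : Prop :=
  IsClosed (E : Set H) ∧ ∀ a : A, ∀ x ∈ E, act π a x ∈ E

/-- `E` is `0` or `H` -/
def TrivialSubspace (E : Submodule ℂ H) : Prop := E = ⊥ ∨ E = ⊤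

/-- `π` is irreducible: `π ≠ 0`, and `0` and `H` are the only closed invariant subspaces -/
def Irreducible (π : Rep A H) : Prop :=
  (∃ (a : A) (x : H), act π a x ≠ 0) ∧
    ∀ E : Submodule ℂ H, ClosedInvariant π E → TrivialSubspace E

/-- unitary equivalence: `U π(a) = σ(a) U` for all `a`, for some unitary `U : H → K` -/
def UnitarilyEquivalent (π : Rep A H) (σ : Rep A K) : Prop :=
  ∃ U : H ≃ₗᵢ[ℂ] K, ∀ (a : A) (x : H), U (act π a x) = act σ a (U x)

end

/-- property (N): `A ≠ 0` and any two irreducible representations of `A` (on Hilbert spaces in the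
universes `u` and `v`) are unitarily equivalent -/
def HasN.{u', v', w'} (A : Type w') [NonUnitalCStarAlgebra A] : Prop :=
  Nontrivial A ∧
  ∀ (H : Type u') [NormedAddCommGroup H] [InnerProductSpace ℂ H] [CompleteSpace H]
    (K : Type v') [NormedAddCommGroup K] [InnerProductSpace ℂ K] [CompleteSpace K]
    (π : Rep A H) (σ : Rep A K), Irreducible π → Irreducible σ → UnitarilyEquivalent π σ

/-- `A` has an irreducible representation (on a Hilbert space in the universe `u`) -/
def HasIrreducible.{u', w'} (A : Type w') [NonUnitalCStarAlgebra A] : Prop :=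
  ∃ (H : Type u') (_ : NormedAddCommGroup H) (_ : InnerProductSpace ℂ H) (_ : CompleteSpace H)
    (π : Rep A H), Irreducible π

/-- the *-homomorphism `φ : A → B(H)` is injective and its range is `K(H)`, the set of compact
operators on `H` -/
def OntoCompacts {A : Type w} [NonUnitalCStarAlgebra A] {H : Type u} [NormedAddCommGroup H]
    [InnerProductSpace ℂ H] [CompleteSpace H] (φ : Rep A H) : Prop :=
  Function.Injective (opOf φ) ∧ ∀ T : H →L[ℂ] H, IsCompactOperator T ↔ ∃ a : A, opOf φ a = T

/-- `A` is isomorphic to `K(H)` for some Hilbert space `H` (in the universe `u`) -/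
def IsoToCompacts.{u', w'} (A : Type w') [NonUnitalCStarAlgebra A] : Prop :=
  ∃ (H : Type u') (_ : NormedAddCommGroup H) (_ : InnerProductSpace ℂ H) (_ : CompleteSpace H)
    (φ : Rep A H), OntoCompacts φ

end Vale.Agent.P070
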