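import Vale.Agent.Lib.P070.Final
import Vale.Agent.Lib.P070.Stmt2
import Vale.Agent.Lib.P070.O.PartO2
import Vale.Agent.Lib.P070.G.Final
import Vale.Agent.Lib.P070.R.PartR
import Vale.Agent.Lib.P070.C.Final

/-!
# P070: Naimark's problem, the final theorem
-/

namespace Vale.Agent.P070

universe u

theorem isIrrep_of {A : Type} [CStarAlgebra A] {H : Type u} [NormedAddCommGroup H]
    [InnerProductSpace ℂ H] [CompleteSpace H] {π : Rep A H} (h : Irreducible π) : IsIrrep π := by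
  obtain ⟨⟨a, x, hx⟩, h2⟩ := h
  refine ⟨fun h0 => hx ?_, fun L hL hinv => h2 L ⟨hL, hinv⟩⟩
  subst h0
  rfl

theorem of_isIrrep {A : Type} [CStarAlgebra A] {H : Type u} [NormedAddCommGroup H]
    [InnerProductSpace ℂ H] [CompleteSpace H] {π : Rep A H} (h : IsIrrep π) : Irreducible π := by
  refine ⟨?_, fun L hL => h.2 L hL.1 hL.2⟩
  by_contra hn
  push Not at hn
  exact h.1 (by ext a x; exact hn a x)

theorem naimark.{u', v', w'} :
    ∃ (A : Type) (_ : CStarAlgebra A), HasN.{u', v'} A ∧ HasIrreducible.{0} A ∧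
      ¬ IsoToCompacts.{w'} A := by
  obtain ⟨A, iA, hN, ⟨H, i1, i2, i3, π, hπ⟩, hs⟩ :=
    _root_.P070.final_of_parts.{u', v'} _root_.P070.partO2
      _root_.P070.partG _root_.P070.partG _root_.P070.partG _root_.P070.partR
      _root_.P070.C.partC
  refine ⟨A, iA, ⟨hN.1, ?_⟩, ⟨H, i1, i2, i3, π, of_isIrrep hπ⟩, ?_⟩
  · intro H _ _ _ K _ _ _ π σ hπ hσ
    exact hN.2 H K π σ (isIrrep_of hπ) (isIrrep_of hσ)
  · rintro ⟨H, i1, i2, i3, φ, h1, h2⟩
    refine _root_.P070.not_compact hs φ h1 ?_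
    ext T
    exact (h2 T).symm

end Vale.Agent.P070
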